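import Mathlib

/-!
# Ruzsa's construction for sets avoiding square differences

Given a squarefree modulus `m` and a set `R ⊆ [0,m)` no two distinct elements of which
differ by a square modulo `m`, the digit construction gives subsets of `[0, m^(2k))` of
size `(|R| m)^k` with no nonzero square difference.
-/

namespace Vale.Agent.P042

/-- The sets of the construction. -/
def ruzsaSet (m : ℕ) (R : Finset ℕ) : ℕ → Finset ℕ
  | 0 => {0}
  | k + 1 => ((R ×ˢ Finset.range m) ×ˢ ruzsaSet m R k).image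
      (fun t => t.1.1 + m * t.1.2 + m ^ 2 * t.2)

/-- No difference of two distinct elements is a perfect square. -/
def NoSquareDiff (A : Finset ℕ) : Prop :=
  ∀ a ∈ A, ∀ b ∈ A, ∀ n : ℤ, (a : ℤ) - b = n ^ 2 → a = b

theorem dvd_of_dvd_sq {m : ℕ} (hm : Squarefree m) {n : ℤ} (h : (m : ℤ) ∣ n ^ 2) : (m : ℤ) ∣ n := by
  have h1 : m ∣ (n.natAbs) ^ 2 := by
    have : ((m : ℤ)).natAbs ∣ (n ^ 2).natAbs := Int.natAbs_dvd_natAbs.mpr h
    simpa [Int.natAbs_pow] using this
  have h2 : m ∣ n.natAbs := (Squarefree.dvd_pow_iff_dvd hm (by norm_num)).mp h1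
  exact Int.natCast_dvd.mpr h2

theorem ruzsa_lt {m : ℕ} {R : Finset ℕ} (hR : ∀ r ∈ R, r < m) (k : ℕ) :
    ∀ a ∈ ruzsaSet m R k, a < m ^ (2 * k) := by
  induction k with
  | zero =>
    intro a ha
    simp only [ruzsaSet, Finset.mem_singleton] at ha
    subst ha
    simp
  | succ k ih =>
    intro a ha
    simp only [ruzsaSet, Finset.mem_image, Finset.mem_product, Finset.mem_range, Prod.exists] at ha
    obtain ⟨r, s, a', ⟨⟨hr, hs⟩, ha'⟩, rfl⟩ := ha
    have h1 := ih a' ha'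
    have h2 := hR r hr
    have h3 : m ^ (2 * (k + 1)) = m ^ 2 * m ^ (2 * k) := by ring
    rw [h3]
    have h4 : a' + 1 ≤ m ^ (2 * k) := h1
    have h5 : m ^ 2 * (a' + 1) ≤ m ^ 2 * m ^ (2 * k) := Nat.mul_le_mul_left _ h4
    have h6 : s + 1 ≤ m := hs
    have h7 : m * (s + 1) ≤ m * m := Nat.mul_le_mul_left _ h6
    nlinarith

theorem ruzsa_inj_aux {m : ℕ} {r r' s s' a a' : ℕ} (hr : r < m) (hr' : r' < m) (hs : s < m)
    (hs' : s' < m) (h : r + m * s + m ^ 2 * a = r' + m * s' + m ^ 2 * a') :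
    r = r' ∧ s = s' ∧ a = a' := by
  have hm : 0 < m := by omega
  have h1 : r + m * (s + m * a) = r' + m * (s' + m * a') := by
    have e1 : r + m * (s + m * a) = r + m * s + m ^ 2 * a := by ring
    have e2 : r' + m * (s' + m * a') = r' + m * s' + m ^ 2 * a' := by ring
    rw [e1, e2, h]
  have hrr : r = r' := by
    have := congrArg (· % m) h1
    simp only [Nat.add_mul_mod_self_left] at this
    rwa [Nat.mod_eq_of_lt hr, Nat.mod_eq_of_lt hr'] at this
  subst hrr
  have h2 : s + m * a = s' + m * a' := by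
    have := Nat.add_left_cancel h1
    exact Nat.eq_of_mul_eq_mul_left hm this
  have hss : s = s' := by
    have := congrArg (· % m) h2
    simp only [Nat.add_mul_mod_self_left] at this
    rwa [Nat.mod_eq_of_lt hs, Nat.mod_eq_of_lt hs'] at this
  subst hss
  have h3 := Nat.add_left_cancel h2
  exact ⟨rfl, rfl, Nat.eq_of_mul_eq_mul_left hm h3⟩

theorem ruzsa_card {m : ℕ} {R : Finset ℕ} (hR : ∀ r ∈ R, r < m) (k : ℕ) :
    (ruzsaSet m R k).card = (R.card * m) ^ k := by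
  induction k with
  | zero => simp [ruzsaSet]
  | succ k ih =>
    simp only [ruzsaSet]
    rw [Finset.card_image_of_injOn]
    · rw [Finset.card_product, Finset.card_product, ih, Finset.card_range]
      ring
    · rintro ⟨⟨r, s⟩, a⟩ h1 ⟨⟨r', s'⟩, a'⟩ h2 h3
      simp only [Finset.coe_product, Set.mem_prod, Finset.mem_coe,
        Finset.mem_range] at h1 h2
      simp only at h3
      obtain ⟨h4, h5, h6⟩ := ruzsa_inj_aux (hR r h1.1.1) (hR r' h2.1.1) h1.1.2 h2.1.2 h3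
      subst h4 h5 h6
      rfl

theorem ruzsa_noSquareDiff {m : ℕ} (hm : Squarefree m) {R : Finset ℕ} (hR : ∀ r ∈ R, r < m)
    (hsq : ∀ r ∈ R, ∀ r' ∈ R, r ≠ r' → ∀ n : ℤ, ¬ (m : ℤ) ∣ ((r : ℤ) - r' - n ^ 2)) (k : ℕ) :
    NoSquareDiff (ruzsaSet m R k) := by
  induction k with
  | zero =>
    intro a ha b hb _ _
    simp only [ruzsaSet, Finset.mem_singleton] at ha hb
    rw [ha, hb]
  | succ k ih =>
    intro x hx y hy n hn
    simp only [ruzsaSet, Finset.mem_image, Finset.mem_product, Finset.mem_range, Prod.exists] at hx hy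
    obtain ⟨r, s, a, ⟨⟨hr, hs⟩, ha⟩, rfl⟩ := hx
    obtain ⟨r', s', a', ⟨⟨hr', hs'⟩, ha'⟩, rfl⟩ := hy
    push_cast at hn
    have hmpos : 0 < m := by
      have := hR r hr
      omega
    -- first digit
    by_cases hrr : r = r'
    · subst hrr
      have hsplit : (m : ℤ) * (((s : ℤ) - s') + m * ((a : ℤ) - a')) = n ^ 2 := by
        rw [← hn]; ring
      have hdn : (m : ℤ) ∣ n := dvd_of_dvd_sq hm ⟨_, hsplit.symm⟩
      obtain ⟨t, rfl⟩ := hdn
      have hmz : (m : ℤ) ≠ 0 := by exact_mod_cast hmpos.ne'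
      have hsplit2 : ((s : ℤ) - s') + m * ((a : ℤ) - a') = m * t ^ 2 := by
        apply mul_left_cancel₀ hmz
        rw [hsplit]
        ring
      have hss : s = s' := by
        have hd : (m : ℤ) ∣ (s : ℤ) - s' := by
          refine ⟨t ^ 2 - ((a : ℤ) - a'), ?_⟩
          linear_combination hsplit2
        have h1 : ((s : ℤ) - s') = 0 := by
          apply Int.eq_zero_of_abs_lt_dvd hd
          rw [abs_lt]
          constructor <;> omega
        omega
      subst hss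
      have h2 : ((a : ℤ) - a') = t ^ 2 := by
        apply mul_left_cancel₀ hmz
        linear_combination hsplit2
      have h3 := ih a ha a' ha' t h2
      rw [h3]
    · exfalso
      apply hsq r hr r' hr' hrr n
      refine ⟨(s' : ℤ) - s + m * ((a' : ℤ) - a), ?_⟩
      linear_combination hn

/-- The generic lower bound: from a base set one gets, for every `N ≥ 1`, a subset of
`[1, N]` without nonzero square differences, of size at least
`N ^ γ / (|R| m)` for every `γ` with `(m^2)^γ ≤ |R| m`. -/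
theorem ruzsa_bound {m : ℕ} (hm : Squarefree m) (hm2 : 2 ≤ m) {R : Finset ℕ} (hR : ∀ r ∈ R, r < m)
    (hRne : R.Nonempty)
    (hsq : ∀ r ∈ R, ∀ r' ∈ R, r ≠ r' → ∀ n : ℤ, ¬ (m : ℤ) ∣ ((r : ℤ) - r' - n ^ 2))
    {γ : ℝ} (hγ0 : 0 ≤ γ) (hγ : ((m : ℝ) ^ 2) ^ γ ≤ (R.card : ℝ) * m) :
    ∃ c : ℝ, 0 < c ∧ ∀ N : ℕ, 1 ≤ N → ∃ A : Finset ℕ, A ⊆ Finset.Icc 1 N ∧
      NoSquareDiff A ∧ c * (N : ℝ) ^ γ ≤ (A.card : ℝ) := by
  have hcardpos : 0 < R.card := Finset.card_pos.mpr hRne
  have hmpos : 0 < m := by omega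
  have hKpos : (0 : ℝ) < (R.card : ℝ) * m := by positivity
  refine ⟨1 / ((R.card : ℝ) * m), by positivity, ?_⟩
  intro N hN
  set M := m ^ 2 with hMdef
  have hM2 : 2 ≤ M := by
    rw [hMdef]
    nlinarith
  set k := Nat.log M N with hk
  have hk1 : M ^ k ≤ N := Nat.pow_log_le_self M (by omega)
  have hk2 : N < M ^ (k + 1) := Nat.lt_pow_succ_log_self (by omega) N
  refine ⟨(ruzsaSet m R k).image (· + 1), ?_, ?_, ?_⟩
  · intro x hx
    simp only [Finset.mem_image] at hx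
    obtain ⟨a, ha, rfl⟩ := hx
    have h1 := ruzsa_lt hR k a ha
    have h2 : m ^ (2 * k) = M ^ k := by rw [hMdef, pow_mul]
    rw [Finset.mem_Icc]
    omega
  · intro x hx y hy n hn
    simp only [Finset.mem_image] at hx hy
    obtain ⟨a, ha, rfl⟩ := hx
    obtain ⟨b, hb, rfl⟩ := hy
    have := ruzsa_noSquareDiff hm hR hsq k a ha b hb n (by push_cast at hn; linarith)
    rw [this]
  · rw [Finset.card_image_of_injective _ (add_left_injective 1), ruzsa_card hR]
    have hcast : (((R.card * m) ^ k : ℕ) : ℝ) = ((R.card : ℝ) * m) ^ k := by push_cast; rfl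
    rw [hcast]
    have hNle : (N : ℝ) ≤ ((M : ℝ)) ^ (k + 1) := by exact_mod_cast hk2.le
    have hNγ : (N : ℝ) ^ γ ≤ (((M : ℝ)) ^ (k + 1)) ^ γ :=
      Real.rpow_le_rpow (by positivity) hNle hγ0
    have hMcast : (M : ℝ) = (m : ℝ) ^ 2 := by rw [hMdef]; push_cast; ring
    have hpow : (((M : ℝ)) ^ (k + 1)) ^ γ = (((m : ℝ) ^ 2) ^ γ) ^ (k + 1) := by
      rw [hMcast, Real.rpow_pow_comm (by positivity)]
    have hle : (N : ℝ) ^ γ ≤ ((R.card : ℝ) * m) ^ (k + 1) := by
      calc (N : ℝ) ^ γ ≤ (((M : ℝ)) ^ (k + 1)) ^ γ := hNγ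
        _ = (((m : ℝ) ^ 2) ^ γ) ^ (k + 1) := hpow
        _ ≤ ((R.card : ℝ) * m) ^ (k + 1) :=
            pow_le_pow_left₀ (by positivity) hγ _
    rw [div_mul_eq_mul_div, one_mul, div_le_iff₀ hKpos]
    calc (N : ℝ) ^ γ ≤ ((R.card : ℝ) * m) ^ (k + 1) := hle
      _ = ((R.card : ℝ) * m) ^ k * ((R.card : ℝ) * m) := by ring

end Vale.Agent.P042
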